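import Vale.Agent.P366.Slice

/-!
# The spacetime Penrose inequality for quasi-spherical data (P366)
-/

open Filter
open scoped Topology

namespace Vale.Agent.Results.P366.QuasiSphericalPenrose

open Vale.P366

/-- Energy bound without any limit assumed, vanishing momentum and the Penrose inequality for
momentum-free data, and data attaining equality in every dimension. -/
theorem result :
    (∀ (n : ℕ) (r₀ : ℝ) (g K : Tens n) (u : Pt n → ℝ) (U : Set (Pt n)),
      Setup g K u U r₀ → Decays g K r₀ →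
      (∀ x : Pt n, ∀ v : Fin n → ℝ, r₀ ≤ ‖x‖ → (∑ i, x i * v i) = 0 →
        ∑ i, ∑ j, g x i j * v i * v j = ∑ i, v i * v i) ∧
      (∀ ε : ℝ, 0 < ε → ∀ᶠ R in atTop, r₀ ^ (n - 2) / 2 - ε ≤ energyFlux g R) ∧
      (∀ E : ℝ, Tendsto (energyFlux g) atTop (𝓝 E) → r₀ ^ (n - 2) / 2 ≤ E) ∧
      ((∀ x : Pt n, r₀ < ‖x‖ → ∀ a, mixedPart g K x a = 0) →
        (∀ x y : Pt n, r₀ < ‖x‖ → ‖x‖ = ‖y‖ → sphereTrace g K x = sphereTrace g K y) →
        (∀ i, Tendsto (momentumFlux g K i) atTop (𝓝 0)) ∧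
        ∀ (E : ℝ) (P : Fin n → ℝ), Tendsto (energyFlux g) atTop (𝓝 E) →
          (∀ i, Tendsto (momentumFlux g K i) atTop (𝓝 (P i))) →
          Real.sqrt (∑ i, P i ^ 2) ≤ E ∧
          r₀ ^ (n - 2) / 2 ≤ Real.sqrt (E ^ 2 - ∑ i, P i ^ 2))) ∧
    (∀ n : ℕ, 3 ≤ n → ∃ (g K : Tens n) (u : Pt n → ℝ) (U : Set (Pt n)),
      Setup g K u U 1 ∧ Decays g K 1 ∧
      (∀ x : Pt n, 1 < ‖x‖ → ∀ a, mixedPart g K x a = 0) ∧
      (∀ x y : Pt n, 1 < ‖x‖ → ‖x‖ = ‖y‖ → sphereTrace g K x = sphereTrace g K y) ∧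
      Tendsto (energyFlux g) atTop (𝓝 (1 / 2))) := by
  refine ⟨fun n r₀ g K u U S hdecay => ?_, fun n hn => ?_⟩
  · have hω := sphereArea_pos (n := n) (by linarith [S.dim])
    refine ⟨fun x v hx hv => ?_, fun ε hε => ?_, fun E hE => S.energy_ge hdecay hE,
      fun hm hr => ⟨S.momentum_zero hdecay hm hr, fun E P hE hP => ?_⟩⟩
    · have e : ∀ i j, g x i j * v i * v j = (if i = j then 1 else 0) * (v i * v j)
          + (u x ^ 2 - 1) / rsq x * ((x i * v i) * (x j * v j)) := fun i j => by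
        rw [S.qs.form x (S.sub x hx)]; ring
      simp only [e, Finset.sum_add_distrib, ← Finset.mul_sum, hv, mul_zero,
        add_zero, ite_mul, one_mul, zero_mul, Finset.sum_ite_eq, Finset.mem_univ, if_true]
    · have h := (S.tendsto_mass_sub hdecay).eventually
        (Iio_mem_nhds (show (0 : ℝ) < 2 * sphereArea n * ε by positivity))
      filter_upwards [h, eventually_ge_atTop r₀] with R hR hR₀
      have h1 := S.area_le_mass hR₀
      refine le_of_mul_le_mul_left ?_ (show (0 : ℝ) < 2 * sphereArea n by positivity)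
      linarith
    · have z : ∀ i, P i = 0 := fun i =>
        tendsto_nhds_unique (hP i) (S.momentum_zero hdecay hm hr i)
      have hb := S.energy_ge hdecay hE
      have hpos : 0 ≤ r₀ ^ (n - 2) / 2 := by have := S.pos; positivity
      have h : ∑ i, P i ^ 2 = 0 := by simp [z]
      rw [h, sub_zero, Real.sqrt_zero, Real.sqrt_sq (hpos.trans hb)]
      exact ⟨hpos.trans hb, hb⟩
  · obtain ⟨h1, h2, h3, h4⟩ := slice_setup n hn
    exact ⟨metricW, extW, lapseW, {x | x ≠ 0}, h1, h2, h3, h4, slice_energy n hn⟩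

end Vale.Agent.Results.P366.QuasiSphericalPenrose
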